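import Mathlib

open scoped ContDiff

namespace Vale.Agent.Lib.P220

/-- Integer lattice vectors of Euclidean `n`-space: all coordinates are integers. -/
def IsLatticeVec {n : ℕ} (k : EuclideanSpace ℝ (Fin n)) : Prop :=
  ∀ i, ∃ m : ℤ, k i = m

/-- The Hamiltonian vector field of `H` on `ℝⁿ × ℝⁿ` with coordinates `(q, p)`:
`dq/dt = ∂H/∂p`, `dp/dt = -∂H/∂q`. -/
noncomputable def hamVF {n : ℕ}
    (H : EuclideanSpace ℝ (Fin n) × EuclideanSpace ℝ (Fin n) → ℝ)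
    (x : EuclideanSpace ℝ (Fin n) × EuclideanSpace ℝ (Fin n)) :
    EuclideanSpace ℝ (Fin n) × EuclideanSpace ℝ (Fin n) :=
  (gradient (fun p => H (x.1, p)) x.2, - gradient (fun q => H (q, x.2)) x.1)

/-- Periodic model of a closed exact Lagrangian submanifold of `T*Tⁿ = (ℝⁿ/ℤⁿ) × ℝⁿ`
that is everywhere transverse to the cotangent fibres: `L` is the full preimage in
`ℝⁿ × ℝⁿ`, `F` is a primitive of the Liouville form `p dq` on `L`. -/
structure IsExactTransverseLagrangian {n : ℕ}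
    (L : Set (EuclideanSpace ℝ (Fin n) × EuclideanSpace ℝ (Fin n)))
    (F : EuclideanSpace ℝ (Fin n) × EuclideanSpace ℝ (Fin n) → ℝ) : Prop where
  nonempty : L.Nonempty
  isClosed : IsClosed L
  periodic : ∀ x ∈ L, ∀ k, IsLatticeVec k → (x.1 + k, x.2) ∈ L
  bounded : ∃ R : ℝ, ∀ x ∈ L, ‖x.2‖ ≤ R
  primitive_periodic : ∀ x ∈ L, ∀ k, IsLatticeVec k → F (x.1 + k, x.2) = F x
  local_graph : ∀ x ∈ L, ∃ U : Set (EuclideanSpace ℝ (Fin n)), IsOpen U ∧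
    ∃ W : Set (EuclideanSpace ℝ (Fin n) × EuclideanSpace ℝ (Fin n)), IsOpen W ∧ x ∈ W ∧
    ∃ f : EuclideanSpace ℝ (Fin n) → ℝ, ContDiffOn ℝ ∞ f U ∧
      (∀ y ∈ W, y ∈ L ↔ y.1 ∈ U ∧ y.2 = gradient f y.1) ∧
      (∀ y ∈ W, y ∈ L → F y = f y.1)

end Vale.Agent.Lib.P220
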