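import Vale.Agent.Lib.P220.Defs

open scoped ContDiff Topology
open Set Filter

namespace Vale.Agent.Lib.P220

/-- Abbreviation used in the proofs only. -/
abbrev EE (n : ℕ) := EuclideanSpace ℝ (Fin n)

variable {n : ℕ}

theorem continuousOn_gradient {U : Set (EE n)} {f : EE n → ℝ} (hf : ContDiffOn ℝ ∞ f U)
    (hU : IsOpen U) : ContinuousOn (gradient f) U := by
  have h1 : ContinuousOn (fderiv ℝ f) U := hf.continuousOn_fderiv_of_isOpen hU (by simp)
  exact (InnerProductSpace.toDual ℝ (EE n)).symm.continuous.comp_continuousOn h1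

theorem sheet_eventually {L : Set (EE n × EE n)} {x : EE n × EE n} {U : Set (EE n)}
    {W : Set (EE n × EE n)} {f : EE n → ℝ} (hU : IsOpen U) (hW : IsOpen W) (hxW : x ∈ W)
    (hxL : x ∈ L) (hf : ContDiffOn ℝ ∞ f U)
    (hiff : ∀ y ∈ W, y ∈ L ↔ y.1 ∈ U ∧ y.2 = gradient f y.1) :
    ∀ᶠ q in 𝓝 x.1, q ∈ U ∧ (q, gradient f q) ∈ W ∧ (q, gradient f q) ∈ L := by
  have hx := (hiff x hxW).1 hxL
  have hxU : x.1 ∈ U := hx.1
  have hUn : U ∈ 𝓝 x.1 := hU.mem_nhds hxU
  have hcont : ContinuousAt (fun q => (q, gradient f q)) x.1 :=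
    continuousAt_id.prodMk ((continuousOn_gradient hf hU).continuousAt hUn)
  have hval : (x.1, gradient f x.1) = x := by rw [← hx.2]
  have hWn : W ∈ 𝓝 ((fun q => (q, gradient f q)) x.1) := by
    simp only; rw [hval]; exact hW.mem_nhds hxW
  filter_upwards [hUn, hcont.preimage_mem_nhds hWn] with q hqU hqW
  exact ⟨hqU, hqW, (hiff _ hqW).2 ⟨hqU, rfl⟩⟩

theorem continuousOn_primitive {L : Set (EE n × EE n)} {F : EE n × EE n → ℝ}
    (hL : IsExactTransverseLagrangian L F) : ContinuousOn F L := by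
  intro x hx
  obtain ⟨U, hU, W, hW, hxW, f, hf, hiff, hF⟩ := hL.local_graph x hx
  have hxU : x.1 ∈ U := ((hiff x hxW).1 hx).1
  have hfc : ContinuousAt f x.1 := hf.continuousOn.continuousAt (hU.mem_nhds hxU)
  have h1 : ContinuousWithinAt (fun y : EE n × EE n => f y.1) L x :=
    (ContinuousAt.comp (f := fun y : EE n × EE n => y.1) hfc continuousAt_fst).continuousWithinAt
  refine h1.congr_of_eventuallyEq ?_ (hF x hxW hx)
  filter_upwards [mem_nhdsWithin_of_mem_nhds (hW.mem_nhds hxW), self_mem_nhdsWithin] with y hyW hyL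
  exact hF y hyW hyL


theorem isCompact_box : IsCompact {q : EE n | ∀ i, 0 ≤ q i ∧ q i ≤ 1} := by
  have h : {q : EE n | ∀ i, 0 ≤ q i ∧ q i ≤ 1} =
      (EuclideanSpace.equiv (Fin n) ℝ) ⁻¹' (Set.Icc (0 : Fin n → ℝ) 1) := by
    ext q
    simp [Set.mem_Icc, Pi.le_def, forall_and]
  rw [h]
  exact (EuclideanSpace.equiv (Fin n) ℝ).toHomeomorph.isCompact_preimage.2 isCompact_Icc

/-- minus the coordinatewise floor, as a lattice vector -/
noncomputable def floorVec (q : EE n) : EE n := WithLp.toLp 2 (fun i => -(⌊q i⌋ : ℝ))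

theorem floorVec_lattice (q : EE n) : IsLatticeVec (floorVec q) :=
  fun i => ⟨-⌊q i⌋, by simp [floorVec]⟩

theorem add_floorVec_apply (q : EE n) (i : Fin n) : (q + floorVec q) i = Int.fract (q i) := by
  have h : (q + floorVec q) i = q i + (-(⌊q i⌋ : ℝ)) := by simp [floorVec]
  rw [h, ← sub_eq_add_neg, Int.self_sub_floor]

theorem base_injective {L : Set (EE n × EE n)} {F : EE n × EE n → ℝ}
    (hL : IsExactTransverseLagrangian L F) :
    ∀ x ∈ L, ∀ y ∈ L, x.1 = y.1 → x = y := by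
  classical
  by_contra hcon
  push Not at hcon
  obtain ⟨x1, hx1, y1, hy1, hbase1, hne1⟩ := hcon
  obtain ⟨R, hR⟩ := hL.bounded
  have hFc := continuousOn_primitive hL
  set N : Set ((EE n × EE n) × (EE n × EE n)) := {z | z.1 ∈ L ∧ z.2 ∈ L ∧ z.1.1 = z.2.1} with hN
  set O : Set ((EE n × EE n) × (EE n × EE n)) :=
    {z | ∃ W : Set (EE n × EE n), IsOpen W ∧ z.1 ∈ W ∧ z.2 ∈ W ∧
      ∀ a ∈ W, ∀ b ∈ W, a ∈ L → b ∈ L → a.1 = b.1 → a = b} with hO
  have hNclosed : IsClosed N := by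
    have : N = (Prod.fst ⁻¹' L) ∩ (Prod.snd ⁻¹' L) ∩ {z | z.1.1 = z.2.1} := by
      ext z; simp [hN, and_assoc]
    rw [this]
    exact ((hL.isClosed.preimage continuous_fst).inter (hL.isClosed.preimage continuous_snd)).inter
      (isClosed_eq (continuous_fst.comp continuous_fst) (continuous_fst.comp continuous_snd))
  have hOopen : IsOpen O := by
    rw [isOpen_iff_mem_nhds]
    rintro z ⟨W, hW, h1, h2, hprop⟩
    have : W ×ˢ W ∈ 𝓝 z := prod_mem_nhds (hW.mem_nhds h1) (hW.mem_nhds h2)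
    filter_upwards [this] with z' hz'
    exact ⟨W, hW, hz'.1, hz'.2, hprop⟩
  have hdiag : ∀ z ∈ N, (z ∈ O ↔ z.1 = z.2) := by
    intro z hz
    constructor
    · rintro ⟨W, hW, h1, h2, hprop⟩
      exact hprop _ h1 _ h2 hz.1 hz.2.1 hz.2.2
    · intro heq
      obtain ⟨U, hU, W, hW, hxW, f, hf, hiff, hF⟩ := hL.local_graph z.1 hz.1
      refine ⟨W, hW, hxW, heq ▸ hxW, ?_⟩
      intro a ha b hb haL hbL hab
      have h1 := ((hiff a ha).1 haL).2
      have h2 := ((hiff b hb).1 hbL).2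
      exact Prod.ext hab (by rw [h1, h2, hab])
  set M : Set ((EE n × EE n) × (EE n × EE n)) := N ∩ Oᶜ with hM
  have hMclosed : IsClosed M := hNclosed.inter hOopen.isClosed_compl
  have hMmem : ∀ z, z ∈ M ↔ z.1 ∈ L ∧ z.2 ∈ L ∧ z.1.1 = z.2.1 ∧ z.1 ≠ z.2 := by
    intro z
    constructor
    · rintro ⟨hzN, hzO⟩
      exact ⟨hzN.1, hzN.2.1, hzN.2.2, fun h => hzO ((hdiag z hzN).2 h)⟩
    · rintro ⟨h1, h2, h3, h4⟩
      exact ⟨⟨h1, h2, h3⟩, fun h => h4 ((hdiag z ⟨h1, h2, h3⟩).1 h)⟩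
  set B : Set (EE n) := {q : EE n | ∀ i, 0 ≤ q i ∧ q i ≤ 1} with hB
  have hBc : IsCompact B := isCompact_box
  set K : Set ((EE n × EE n) × (EE n × EE n)) := M ∩ {z | z.1.1 ∈ B} with hK
  have hKclosed : IsClosed K :=
    hMclosed.inter (hBc.isClosed.preimage (continuous_fst.comp continuous_fst))
  have hKcompact : IsCompact K := by
    have hT : IsCompact ((B ×ˢ Metric.closedBall (0 : EE n) R) ×ˢ
        (B ×ˢ Metric.closedBall (0 : EE n) R)) :=
      (hBc.prod (isCompact_closedBall 0 R)).prod (hBc.prod (isCompact_closedBall 0 R))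
    refine hT.of_isClosed_subset hKclosed ?_
    rintro z ⟨hzM, hzB⟩
    obtain ⟨h1, h2, h3, -⟩ := (hMmem z).1 hzM
    refine ⟨⟨hzB, ?_⟩, ⟨?_, ?_⟩⟩
    · simpa using hR _ h1
    · rw [← h3]; exact hzB
    · simpa using hR _ h2
  set G : (EE n × EE n) × (EE n × EE n) → ℝ := fun z => F z.1 - F z.2 with hG
  have hGN : ContinuousOn G N :=
    (hFc.comp continuous_fst.continuousOn (fun z hz => hz.1)).sub
      (hFc.comp continuous_snd.continuousOn (fun z hz => hz.2.1))
  have hGK : ContinuousOn G K := hGN.mono (fun z hz => hz.1.1)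
  have htrans : ∀ z ∈ M, ∃ z' ∈ K, G z' = G z := by
    intro z hz
    obtain ⟨h1, h2, h3, h4⟩ := (hMmem z).1 hz
    have hk := floorVec_lattice z.1.1
    refine ⟨((z.1.1 + floorVec z.1.1, z.1.2), (z.2.1 + floorVec z.1.1, z.2.2)), ⟨?_, ?_⟩, ?_⟩
    · refine (hMmem _).2 ⟨hL.periodic _ h1 _ hk, hL.periodic _ h2 _ hk, ?_, ?_⟩
      · simp [h3]
      · intro h
        apply h4
        have h5 : z.1.2 = z.2.2 := by
          have h6 := congrArg Prod.snd h
          simpa using h6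
        exact Prod.ext h3 h5
    · intro i
      have := add_floorVec_apply z.1.1 i
      simp only
      rw [this]
      exact ⟨Int.fract_nonneg _, (Int.fract_lt_one _).le⟩
    · simp only [hG]
      rw [hL.primitive_periodic _ h1 _ hk, hL.primitive_periodic _ h2 _ hk]
  have hKne : K.Nonempty := by
    have : ((x1, y1) : (EE n × EE n) × (EE n × EE n)) ∈ M :=
      (hMmem _).2 ⟨hx1, hy1, hbase1, hne1⟩
    obtain ⟨z', hz', -⟩ := htrans _ this
    exact ⟨z', hz'⟩
  obtain ⟨z0, hz0K, hz0max⟩ := hKcompact.exists_isMaxOn hKne hGK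
  have hmaxM : ∀ z ∈ M, G z ≤ G z0 := by
    intro z hz
    obtain ⟨z', hz'K, hGz⟩ := htrans z hz
    rw [← hGz]; exact hz0max hz'K
  have hz0M : z0 ∈ M := hz0K.1
  obtain ⟨hx0, hy0, hb0, hne0⟩ := (hMmem z0).1 hz0M
  obtain ⟨U1, hU1, W1, hW1, hxW1, f1, hf1, hiff1, hF1⟩ := hL.local_graph z0.1 hx0
  obtain ⟨U2, hU2, W2, hW2, hxW2, f2, hf2, hiff2, hF2⟩ := hL.local_graph z0.2 hy0
  have e1 := sheet_eventually hU1 hW1 hxW1 hx0 hf1 hiff1
  have e2 := sheet_eventually hU2 hW2 hxW2 hy0 hf2 hiff2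
  rw [← hb0] at e2
  have hg1 : z0.1.2 = gradient f1 z0.1.1 := ((hiff1 _ hxW1).1 hx0).2
  have hg2 : z0.2.2 = gradient f2 z0.2.1 := ((hiff2 _ hxW2).1 hy0).2
  have hU1n : U1 ∈ 𝓝 z0.1.1 := hU1.mem_nhds ((hiff1 _ hxW1).1 hx0).1
  have hU2n : U2 ∈ 𝓝 z0.1.1 := by rw [hb0]; exact hU2.mem_nhds ((hiff2 _ hxW2).1 hy0).1
  have hgne : gradient f1 z0.1.1 ≠ gradient f2 z0.1.1 := by
    intro h
    apply hne0
    refine Prod.ext hb0 ?_
    rw [hg1, hg2, ← hb0, h]
  have hc1 : ContinuousAt (gradient f1) z0.1.1 := (continuousOn_gradient hf1 hU1).continuousAt hU1n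
  have hc2 : ContinuousAt (gradient f2) z0.1.1 := (continuousOn_gradient hf2 hU2).continuousAt hU2n
  have e3 : ∀ᶠ q in 𝓝 z0.1.1, gradient f1 q ≠ gradient f2 q := by
    have hopen : IsOpen {p : EE n × EE n | p.1 ≠ p.2} :=
      isOpen_ne_fun continuous_fst continuous_snd
    exact (hc1.prodMk hc2).preimage_mem_nhds (hopen.mem_nhds hgne)
  have hlocmax : IsLocalMax (fun q => f1 q - f2 q) z0.1.1 := by
    filter_upwards [e1, e2, e3] with q h1 h2 h3
    have hzM : (((q, gradient f1 q), (q, gradient f2 q)) : (EE n × EE n) × (EE n × EE n)) ∈ M :=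
      (hMmem _).2 ⟨h1.2.2, h2.2.2, rfl, fun h => h3 (congrArg (fun w : EE n × EE n => w.2) h)⟩
    have hle := hmaxM _ hzM
    have ha : F (q, gradient f1 q) = f1 q := hF1 _ h1.2.1 h1.2.2
    have hb : F (q, gradient f2 q) = f2 q := hF2 _ h2.2.1 h2.2.2
    have hc : F z0.1 = f1 z0.1.1 := hF1 _ hxW1 hx0
    have hd : F z0.2 = f2 z0.2.1 := hF2 _ hxW2 hy0
    simp only [hG] at hle
    rw [ha, hb, hc, hd, ← hb0] at hle
    exact hle
  have hd1 : DifferentiableAt ℝ f1 z0.1.1 := (hf1.contDiffAt hU1n).differentiableAt (by simp)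
  have hd2 : DifferentiableAt ℝ f2 z0.1.1 := (hf2.contDiffAt hU2n).differentiableAt (by simp)
  have hfd := hlocmax.fderiv_eq_zero
  have hsub : fderiv ℝ (fun q => f1 q - f2 q) z0.1.1 = fderiv ℝ f1 z0.1.1 - fderiv ℝ f2 z0.1.1 :=
    fderiv_fun_sub hd1 hd2
  rw [hsub] at hfd
  have heq : fderiv ℝ f1 z0.1.1 = fderiv ℝ f2 z0.1.1 := sub_eq_zero.mp hfd
  exact hgne (by simp only [gradient, heq])


theorem base_surjective {L : Set (EE n × EE n)} {F : EE n × EE n → ℝ}
    (hL : IsExactTransverseLagrangian L F) : ∀ q : EE n, ∃ x ∈ L, x.1 = q := by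
  obtain ⟨R, hR⟩ := hL.bounded
  set S : Set (EE n) := Prod.fst '' L with hS
  have hopen : IsOpen S := by
    rw [isOpen_iff_mem_nhds]
    rintro q ⟨x, hx, rfl⟩
    obtain ⟨U, hU, W, hW, hxW, f, hf, hiff, hF⟩ := hL.local_graph x hx
    filter_upwards [sheet_eventually hU hW hxW hx hf hiff] with q hq
    exact ⟨(q, gradient f q), hq.2.2, rfl⟩
  have hclosed : IsClosed S := by
    have : CompactSpace (Metric.closedBall (0 : EE n) R) :=
      isCompact_iff_compactSpace.mp (isCompact_closedBall 0 R)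
    set L' : Set (EE n × Metric.closedBall (0 : EE n) R) := {z | (z.1, (z.2 : EE n)) ∈ L} with hL'
    have hL'c : IsClosed L' :=
      hL.isClosed.preimage (continuous_fst.prodMk (continuous_subtype_val.comp continuous_snd))
    have hSeq : S = Prod.fst '' L' := by
      ext q
      constructor
      · rintro ⟨x, hx, rfl⟩
        exact ⟨(x.1, ⟨x.2, by simpa using hR x hx⟩), hx, rfl⟩
      · rintro ⟨z, hz, rfl⟩
        exact ⟨(z.1, (z.2 : EE n)), hz, rfl⟩
    rw [hSeq]
    exact isClosedMap_fst_of_compactSpace _ hL'c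
  have hne : S.Nonempty := hL.nonempty.image _
  have huniv : S = univ := IsClopen.eq_univ ⟨hclosed, hopen⟩ hne
  intro q
  have hq : q ∈ S := by rw [huniv]; trivial
  obtain ⟨x, hx, rfl⟩ := hq
  exact ⟨x, hx, rfl⟩

theorem graph_of_exact {L : Set (EE n × EE n)} {F : EE n × EE n → ℝ}
    (hL : IsExactTransverseLagrangian L F) :
    ∃ g : EE n → ℝ, ContDiff ℝ ∞ g ∧ (∀ q k, IsLatticeVec k → g (q + k) = g q) ∧
      L = {x | x.2 = gradient g x.1} := by
  classical
  have hinj := base_injective hL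
  have hsurj := base_surjective hL
  choose s hsL hs1 using hsurj
  have huniq : ∀ x ∈ L, x = s x.1 := fun x hx => hinj x hx (s x.1) (hsL _) (hs1 _).symm
  have hloc : ∀ q0 : EE n, ∃ f : EE n → ℝ, ContDiffAt ℝ ∞ f q0 ∧
      (fun q => F (s q)) =ᶠ[𝓝 q0] f ∧ gradient f q0 = (s q0).2 := by
    intro q0
    obtain ⟨U, hU, W, hW, hxW, f, hf, hiff, hF⟩ := hL.local_graph (s q0) (hsL q0)
    have hx := (hiff _ hxW).1 (hsL q0)
    have hUn : U ∈ 𝓝 q0 := by
      have := hU.mem_nhds hx.1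
      rwa [hs1] at this
    have hev := sheet_eventually hU hW hxW (hsL q0) hf hiff
    rw [hs1] at hev
    refine ⟨f, hf.contDiffAt hUn, ?_, ?_⟩
    · filter_upwards [hev] with q hq
      have h1 : ((q, gradient f q) : EE n × EE n) = s q := huniq _ hq.2.2
      rw [← h1]
      exact hF _ hq.2.1 hq.2.2
    · rw [hx.2, hs1]
  have hgrad : ∀ q0 : EE n, gradient (fun q => F (s q)) q0 = (s q0).2 := by
    intro q0
    obtain ⟨f, -, hev, hgr⟩ := hloc q0
    rw [← hgr]
    exact hev.gradient_eq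
  refine ⟨fun q => F (s q), ?_, ?_, ?_⟩
  · rw [contDiff_iff_contDiffAt]
    intro q0
    obtain ⟨f, hf, hev, -⟩ := hloc q0
    exact hf.congr_of_eventuallyEq hev
  · intro q k hk
    have h1 : (((s q).1 + k, (s q).2) : EE n × EE n) ∈ L := hL.periodic _ (hsL q) k hk
    have h2 : (((s q).1 + k, (s q).2) : EE n × EE n) = s (q + k) := by
      have := huniq _ h1
      simpa [hs1] using this
    show F (s (q + k)) = F (s q)
    rw [← h2]
    exact hL.primitive_periodic _ (hsL q) k hk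
  · ext x
    constructor
    · intro hx
      show x.2 = gradient (fun q => F (s q)) x.1
      rw [hgrad]
      exact congrArg Prod.snd (huniq x hx)
    · intro hx
      have hx' : x.2 = gradient (fun q => F (s q)) x.1 := hx
      rw [hgrad] at hx'
      have : x = s x.1 := Prod.ext (hs1 _).symm hx'
      rw [this]
      exact hsL _

theorem ham_isotopy (g : EE n → ℝ) (hg : ContDiff ℝ ∞ g)
    (hper : ∀ q k, IsLatticeVec k → g (q + k) = g q)
    (R : ℝ) (hR : ∀ q, ‖gradient g q‖ ≤ R) :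
    ∃ H : EE n × EE n → ℝ, ContDiff ℝ ∞ H ∧
      (∀ x k, IsLatticeVec k → H (x.1 + k, x.2) = H x) ∧
      (∃ R' : ℝ, ∀ x, R' ≤ ‖x.2‖ → H x = 0) ∧
      ∃ φ : ℝ → EE n → EE n × EE n, (∀ q, φ 0 q = (q, 0)) ∧
        (∀ q, ∀ t ∈ Set.Icc (0 : ℝ) 1, HasDerivAt (fun s => φ s q) (hamVF H (φ t q)) t) ∧
        Set.range (φ 1) = {x | x.2 = gradient g x.1} := by
  set R0 : ℝ := max R 0 with hR0
  have hR0nn : 0 ≤ R0 := le_max_right _ _
  have hRR0 : R ≤ R0 := le_max_left _ _
  let b : ContDiffBump (0 : EE n) := ⟨R0 + 1, R0 + 2, by positivity, by linarith⟩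
  have hb1 : ∀ p : EE n, ‖p‖ ≤ R0 + 1 → b p = 1 := by
    intro p hp
    exact b.one_of_mem_closedBall (by simpa using hp)
  have hb0 : ∀ p : EE n, R0 + 2 ≤ ‖p‖ → b p = 0 := by
    intro p hp
    exact b.zero_of_le_dist (by simpa using hp)
  refine ⟨fun x => -(b x.2 * g x.1), ?_, ?_, ⟨R0 + 2, ?_⟩, fun t q => (q, t • gradient g q), ?_, ?_, ?_⟩
  · exact (((b.contDiff (n := ⊤)).comp contDiff_snd).mul (hg.comp contDiff_fst)).neg
  · intro x k hk
    simp only
    rw [hper _ _ hk]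
  · intro x hx
    simp only
    rw [hb0 _ hx]
    simp
  · intro q
    simp
  · intro q t ht
    have hder : HasDerivAt (fun s : ℝ => ((q, s • gradient g q) : EE n × EE n))
        ((0 : EE n), (1 : ℝ) • gradient g q) t :=
      (hasDerivAt_const t q).prodMk ((hasDerivAt_id t).smul_const (gradient g q))
    have hnorm : ‖t • gradient g q‖ ≤ R0 := by
      rw [norm_smul, Real.norm_eq_abs, abs_of_nonneg ht.1]
      calc t * ‖gradient g q‖ ≤ 1 * ‖gradient g q‖ :=
            mul_le_mul_of_nonneg_right ht.2 (norm_nonneg _)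
        _ = ‖gradient g q‖ := one_mul _
        _ ≤ R := hR q
        _ ≤ R0 := hRR0
    have hvf : hamVF (fun x : EE n × EE n => -(b x.2 * g x.1)) (q, t • gradient g q) =
        ((0 : EE n), (1 : ℝ) • gradient g q) := by
      unfold hamVF
      simp only
      refine Prod.ext ?_ ?_
      · show gradient (fun p : EE n => -(b p * g q)) (t • gradient g q) = 0
        have hev : (fun p : EE n => -(b p * g q)) =ᶠ[𝓝 (t • gradient g q)]
            Function.const (EE n) (-(g q)) := by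
          have hball : Metric.ball (0 : EE n) (R0 + 1) ∈ 𝓝 (t • gradient g q) :=
            Metric.isOpen_ball.mem_nhds (by simpa using lt_of_le_of_lt hnorm (by linarith))
          filter_upwards [hball] with p hp
          have hp' : ‖p‖ ≤ R0 + 1 := by
            have : ‖p‖ < R0 + 1 := by simpa using hp
            exact this.le
          simp [hb1 p hp']
        rw [hev.gradient_eq]
        exact gradient_const _ _
      · show -gradient (fun q' : EE n => -(b (t • gradient g q) * g q')) q = (1 : ℝ) • gradient g q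
        rw [hb1 _ (by linarith)]
        have hfd : fderiv ℝ (fun q' : EE n => -(1 * g q')) q = -fderiv ℝ g q := by
          simp only [one_mul]
          exact fderiv_fun_neg
        unfold gradient
        rw [hfd, map_neg]
        simp
    rw [hvf]
    exact hder
  · ext x
    constructor
    · rintro ⟨q, rfl⟩
      simp
    · intro hx
      refine ⟨x.1, ?_⟩
      have hx' : x.2 = gradient g x.1 := hx
      simp only [one_smul]
      exact Prod.ext rfl hx'.symm

end Vale.Agent.Lib.P220
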